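import Vale.Agent.P243.Third.Body

/-!
The density on an ellipsoid with constant line integrals, and the resulting bound for coverings
by cylinders: if the image of the unit ball under T (moved by o) lies in K and T stretches by at
most b, then π |det T| ≤ b Σ |B_i|.
-/

namespace Vale.Agent.P243.Spheroid

open Set MeasureTheory Filter Topology
open Vale.Agent.P243.Third (G3 shadow frame shadow_eq)
open scoped RealInnerProductSpace ENNReal Real

/-- The density on the unit ball with constant integrals on lines meeting it. -/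
noncomputable def dens (x : R3) : ℝ≥0∞ := ENNReal.ofReal (√(1 - ‖x‖ ^ 2))⁻¹

lemma dens_measurable : Measurable dens := by
  unfold dens; fun_prop

lemma norm_lt_one_of_dens {x : R3} (h : dens x ≠ 0) : ‖x‖ < 1 := by
  by_contra hle
  push Not at hle
  apply h
  have : (1 : ℝ) - ‖x‖ ^ 2 ≤ 0 := by nlinarith
  simp [dens, Real.sqrt_eq_zero_of_nonpos this]

/-- The arcsine integral. -/
lemma lintegral_arcsin {A : ℝ} (hA : 0 < A) :
    ∫⁻ s : ℝ, ENNReal.ofReal (√(A - s ^ 2))⁻¹ = ENNReal.ofReal π := by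
  set a := √A with ha
  have ha0 : 0 < a := Real.sqrt_pos.2 hA
  have haA : a ^ 2 = A := Real.sq_sqrt hA.le
  have hcont : ContinuousOn (fun s => Real.arcsin (s / a)) (Icc (-a) a) := by fun_prop
  have hd : ∀ s ∈ Ioo (-a) a,
      HasDerivAt (fun s => Real.arcsin (s / a)) (√(A - s ^ 2))⁻¹ s := by
    intro s hs
    have h1 : s / a ≠ -1 := by
      intro h; rw [div_eq_iff ha0.ne'] at h; linarith [hs.1]
    have h2 : s / a ≠ 1 := by
      intro h; rw [div_eq_iff ha0.ne'] at h; linarith [hs.2]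
    have := (Real.hasDerivAt_arcsin h1 h2).comp s ((hasDerivAt_id s).div_const a)
    simp only [id] at this
    refine this.congr_deriv ?_
    rw [show A - s ^ 2 = A * (1 - (s / a) ^ 2) by rw [div_pow, haA]; field_simp,
      Real.sqrt_mul hA.le, ← ha, mul_inv, one_div]
    ring
  have hint : IntegrableOn (fun s : ℝ => (√(A - s ^ 2))⁻¹) (Ioc (-a) a) :=
    intervalIntegral.integrableOn_deriv_of_nonneg hcont hd fun s _ => by positivity
  have hval : ∫ s in (-a)..a, (√(A - s ^ 2))⁻¹ = π := by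
    rw [intervalIntegral.integral_eq_sub_of_hasDerivAt_of_le (by linarith) hcont hd
      ((intervalIntegrable_iff_integrableOn_Ioc_of_le (by linarith)).2 hint),
      div_self ha0.ne', neg_div, div_self ha0.ne', Real.arcsin_one, Real.arcsin_neg_one]
    ring
  have hout : ∀ s ∉ Ioc (-a) a, ENNReal.ofReal (√(A - s ^ 2))⁻¹ = 0 := by
    intro s hs
    have : A - s ^ 2 ≤ 0 := by
      rw [mem_Ioc, not_and_or, not_lt, not_le] at hs
      rcases hs with h | h <;> nlinarith
    simp [Real.sqrt_eq_zero_of_nonpos this]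
  rw [← setLIntegral_eq_of_support_subset (s := Ioc (-a) a)
      (fun s hs => by by_contra h; exact hs (hout s h)),
    ← ofReal_integral_eq_lintegral_ofReal hint (ae_of_all _ fun s => by positivity),
    ← intervalIntegral.integral_of_le (by linarith), hval]

/-- The integral of the density on the line p + t v. -/
lemma line_integral (p v : R3) (hv : v ≠ 0) :
    ∫⁻ t : ℝ, dens (p + t • v) =
      if ‖p‖ ^ 2 < 1 + ⟪p, v⟫ ^ 2 / ‖v‖ ^ 2 then ENNReal.ofReal (π / ‖v‖) else 0 := by
  have hv0 : 0 < ‖v‖ := norm_pos_iff.2 hv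
  set k := ⟪p, v⟫ / ‖v‖ ^ 2 with hk
  set A := (1 - ‖p‖ ^ 2 + ⟪p, v⟫ ^ 2 / ‖v‖ ^ 2) / ‖v‖ ^ 2 with hA
  have hpt : ∀ t : ℝ, dens (p + t • v) =
      ENNReal.ofReal ‖v‖⁻¹ * ENNReal.ofReal (√(A - (t + k) ^ 2))⁻¹ := by
    intro t
    rw [dens, ← ENNReal.ofReal_mul (by positivity), ← mul_inv]
    congr 2
    rw [norm_add_sq_real, norm_smul, Real.norm_eq_abs, mul_pow, sq_abs, real_inner_smul_right,
      show 1 - (‖p‖ ^ 2 + 2 * (t * ⟪p, v⟫) + t ^ 2 * ‖v‖ ^ 2) =
        ‖v‖ ^ 2 * (A - (t + k) ^ 2) by rw [hA, hk]; field_simp; ring,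
      Real.sqrt_mul (by positivity), Real.sqrt_sq hv0.le]
  simp only [hpt]
  rw [lintegral_const_mul _ (by fun_prop),
    lintegral_add_right_eq_self (fun s : ℝ => ENNReal.ofReal (√(A - s ^ 2))⁻¹) k]
  by_cases hA0 : 0 < A
  · rw [if_pos, lintegral_arcsin hA0, ← ENNReal.ofReal_mul (by positivity)]
    · congr 1; ring
    · have := (div_pos_iff_of_pos_right (by positivity)).1 hA0
      linarith
  · rw [if_neg]
    · have : ∀ s : ℝ, ENNReal.ofReal (√(A - s ^ 2))⁻¹ = 0 := fun s => by
        simp [Real.sqrt_eq_zero_of_nonpos (show A - s ^ 2 ≤ 0 by nlinarith [sq_nonneg s])]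
      simp [this]
    · intro h
      exact hA0 (div_pos (by linarith) (by positivity))

lemma line_integral_le (p v : R3) (hv : v ≠ 0) :
    ∫⁻ t : ℝ, dens (p + t • v) ≤ ENNReal.ofReal (π / ‖v‖) := by
  rw [line_integral p v hv]; split_ifs <;> simp

lemma disc_area : volume {y : ℝ × ℝ | y.1 ^ 2 + y.2 ^ 2 < 1} = ENNReal.ofReal π := by
  have hm : MeasurableSet {y : ℝ × ℝ | y.1 ^ 2 + y.2 ^ 2 < 1} :=
    measurableSet_lt (by fun_prop) measurable_const
  rw [← Complex.volume_preserving_equiv_real_prod.measure_preimage hm.nullMeasurableSet]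
  have e : Complex.measurableEquivRealProd ⁻¹' {y : ℝ × ℝ | y.1 ^ 2 + y.2 ^ 2 < 1} =
      Metric.ball (0 : ℂ) 1 := by
    ext z
    simp only [Complex.measurableEquivRealProd_apply, mem_preimage, mem_ofPred_eq,
      mem_ball_zero_iff, Complex.norm_def, Complex.normSq_apply]
    rw [Real.sqrt_lt' one_pos]
    constructor <;> intro h <;> linarith
  rw [e, Complex.volume_ball]
  simp only [ENNReal.ofReal_one, one_pow, one_mul, ← NNReal.coe_real_pi, ENNReal.ofReal_coe_nnreal]

/-- Coordinates of a point. -/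
lemma point_eq {e n u : R3} {ψ : R3 ≃ₜ G3} (hu : ‖u‖ = 1) (heu : ⟪e, u⟫ = 0) (hnu : ⟪n, u⟫ = 0)
    (hψ : ∀ x, ψ x = ((⟪e, x⟫, ⟪n, x⟫), ⟪u, x⟫)) (y : ℝ × ℝ) (t : ℝ) :
    ψ.symm (y, t) = ψ.symm (y, 0) + t • u := by
  apply ψ.injective
  rw [ψ.apply_symm_apply, hψ]
  have h0 := ψ.apply_symm_apply (y, 0)
  rw [hψ] at h0
  have ha := congrArg (fun q : G3 => q.1.1) h0
  have hb := congrArg (fun q : G3 => q.1.2) h0
  have hc := congrArg (fun q : G3 => q.2) h0
  dsimp only at ha hb hc
  simp [inner_add_right, inner_smul_right, heu, hnu, hu, ha, hb, hc]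

lemma lintegral_dens : ∫⁻ x, dens x = ENNReal.ofReal (π * π) := by
  obtain ⟨e, n, ψ, he, hn, hen, heu, hnu, hmp, hψ⟩ :=
    frame (u := EuclideanSpace.single (0 : Fin 3) (1 : ℝ)) (by simp)
  set u := EuclideanSpace.single (0 : Fin 3) (1 : ℝ)
  have hu : ‖u‖ = 1 := by simp [u]
  have hne : u ≠ 0 := norm_ne_zero_iff.1 (by rw [hu]; norm_num)
  have hsm : Measurable fun q : G3 => dens (ψ.symm q) :=
    dens_measurable.comp ψ.symm.continuous.measurable
  have hl : ∀ y : ℝ × ℝ, ∫⁻ t, dens (ψ.symm (y, t)) =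
      {y : ℝ × ℝ | y.1 ^ 2 + y.2 ^ 2 < 1}.indicator (fun _ => ENNReal.ofReal π) y := by
    intro y
    set p := ψ.symm (y, 0)
    have h0 := ψ.apply_symm_apply (y, 0)
    rw [hψ] at h0
    have hc : ⟪u, p⟫ = 0 := congrArg (fun q : G3 => q.2) h0
    have hp : ‖p‖ ^ 2 = y.1 ^ 2 + y.2 ^ 2 := by
      have hd : p = y.1 • e + y.2 • n := by
        apply ψ.injective
        rw [ψ.apply_symm_apply, hψ]
        simp [inner_add_right, inner_smul_right, hen, real_inner_comm e n, real_inner_comm e u,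
          real_inner_comm n u, heu, hnu, he, hn]
      rw [hd, norm_add_sq_real, real_inner_smul_left, real_inner_smul_right, hen, norm_smul,
        norm_smul, he, hn]
      simp
    rw [lintegral_congr fun t => congrArg dens (point_eq hu heu hnu hψ y t), line_integral p u hne,
      hu, hp, real_inner_comm u p, hc]
    simp [indicator_apply]
  calc ∫⁻ x, dens x = ∫⁻ q : G3, dens (ψ.symm q) := by
        rw [← hmp.lintegral_comp hsm]; simp
    _ = ∫⁻ y : ℝ × ℝ, ∫⁻ t, dens (ψ.symm (y, t)) := by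
        rw [Measure.volume_eq_prod, lintegral_prod _ hsm.aemeasurable]
    _ = ENNReal.ofReal π * ENNReal.ofReal π := by
        rw [lintegral_congr hl, lintegral_indicator (measurableSet_lt (by fun_prop) measurable_const),
          setLIntegral_const, disc_area]
    _ = _ := (ENNReal.ofReal_mul Real.pi_pos.le).symm

/-- One cylinder carries at most c times its base area of a density with line integrals ≤ c. -/
lemma cylinder_mass {u : R3} (hu : ‖u‖ = 1) (B : Set ↥(orthPlane u)) {f : R3 → ℝ≥0∞}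
    (hf : Measurable f) {c : ℝ≥0∞} (hI : ∀ x : R3, ∫⁻ t : ℝ, f (x + t • u) ≤ c) :
    ∫⁻ x in cylinderOver (orthPlane u) B, f x ≤ c * area (orthPlane u) B := by
  obtain ⟨e, n, ψ, he, hn, hen, heu, hnu, hmp, hψ⟩ := frame hu
  have hne : u ≠ 0 := norm_ne_zero_iff.1 (by rw [hu]; norm_num)
  obtain ⟨φ, hφ, hφx⟩ := plane_coords finrank_euclideanSpace_fin hne he hn hen heu hnu
  set U := toMeasurable volume (φ '' B) with hU
  have hUm : MeasurableSet U := measurableSet_toMeasurable _ _
  have hUv : volume U = area (orthPlane u) B := by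
    rw [hU, measure_toMeasurable]
    exact (hφ.measure_preimage_emb φ.measurableEmbedding _).symm.trans
      (congrArg volume (preimage_image_eq _ φ.injective))
  have hcyl : cylinderOver (orthPlane u) B ⊆ ψ ⁻¹' (U ×ˢ univ) := by
    intro x hx
    refine ⟨subset_toMeasurable _ _ ⟨_, hx, ?_⟩, mem_univ _⟩
    rw [hψ]; exact hφx x
  have hUm' : MeasurableSet (U ×ˢ (univ : Set ℝ)) := hUm.prod MeasurableSet.univ
  have hsm : Measurable fun q : G3 => f (ψ.symm q) := hf.comp ψ.symm.continuous.measurable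
  calc ∫⁻ x in cylinderOver (orthPlane u) B, f x ≤ ∫⁻ x in ψ ⁻¹' (U ×ˢ univ), f x :=
        lintegral_mono_set hcyl
    _ = ∫⁻ q in U ×ˢ (univ : Set ℝ), f (ψ.symm q) := by
        rw [← hmp.setLIntegral_comp_preimage hUm' hsm]; simp
    _ = ∫⁻ y in U, ∫⁻ t : ℝ, f (ψ.symm (y, t)) := by
        rw [Measure.volume_eq_prod, ← Measure.prod_restrict, lintegral_prod _ hsm.aemeasurable,
          Measure.restrict_univ]
    _ ≤ ∫⁻ _ in U, c := by
        refine setLIntegral_mono measurable_const fun y _ => ?_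
        rw [lintegral_congr fun t => congrArg f (point_eq hu heu hnu hψ y t)]
        exact hI _
    _ = _ := by rw [setLIntegral_const, hUv]

/-- An ellipsoid inside K bounds the total area of every covering from below. -/
theorem ellipsoid_bound {K : Set R3} (o : R3) (T : R3 →L[ℝ] R3) {b : ℝ} (hb : ‖T‖ ≤ b)
    (hT : ∀ v : R3, ‖v‖ ≤ 1 → o + T v ∈ K) (hdet : T.det ≠ 0)
    {m : ℕ} (u : Fin m → R3) (hu : ∀ i, ‖u i‖ = 1) (B : ∀ i, Set ↥(orthPlane (u i)))
    (hcov : K ⊆ ⋃ i, cylinderOver (orthPlane (u i)) (B i)) :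
    ENNReal.ofReal (π * |T.det|) ≤ ENNReal.ofReal b * ∑ i, area (orthPlane (u i)) (B i) := by
  set L : R3 ≃ₗ[ℝ] R3 := LinearMap.equivOfDetNeZero (T : R3 →ₗ[ℝ] R3) hdet
  have hL : ∀ v, L v = T v := fun v => rfl
  set f : R3 → ℝ≥0∞ := fun x => dens (L.symm (x - o)) with hfdef
  have hlc : Continuous fun x : R3 => L.symm (x - o) :=
    L.symm.toContinuousLinearEquiv.continuous.comp (continuous_id.sub continuous_const)
  have hfm : Measurable f := dens_measurable.comp hlc.measurable
  have hsupp : ∀ x, f x ≠ 0 → x ∈ K := by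
    intro x hx
    have h1 := hT _ (norm_lt_one_of_dens hx).le
    rw [← hL, L.apply_symm_apply, add_sub_cancel] at h1
    exact h1
  have hint : ∫⁻ x, f x = ENNReal.ofReal (π * π * |T.det|) := by
    have h1 : ∫⁻ x, f x = ∫⁻ x, dens (L.symm x) :=
      lintegral_sub_right_eq_self (fun x => dens (L.symm x)) o
    have hdet' : LinearMap.det (L.symm : R3 →ₗ[ℝ] R3) = (T.det)⁻¹ := by
      rw [LinearEquiv.det_coe_symm]; rfl
    have h2 := lintegral_map (μ := (volume : Measure R3)) dens_measurable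
      (L.symm.toContinuousLinearEquiv.continuous.measurable)
    have h3 := Measure.map_linearMap_addHaar_eq_smul_addHaar (μ := (volume : Measure R3))
      (f := (L.symm : R3 →ₗ[ℝ] R3)) (by rw [hdet']; exact inv_ne_zero hdet)
    rw [hdet', inv_inv] at h3
    have h4 : ∫⁻ x, dens (L.symm x) = ENNReal.ofReal |T.det| * ∫⁻ x, dens x := by
      rw [show (L.symm.toContinuousLinearEquiv : R3 → R3) = (L.symm : R3 →ₗ[ℝ] R3) from rfl, h3,
        lintegral_smul_measure] at h2
      exact h2.symm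
    rw [h1, h4, lintegral_dens, ← ENNReal.ofReal_mul (abs_nonneg _), mul_comm]
  have hline : ∀ i, ∀ x : R3,
      ∫⁻ t : ℝ, f (x + t • u i) ≤ ENNReal.ofReal (π * b) := by
    intro i x
    have hv : L.symm (u i) ≠ 0 := by
      rw [ne_eq, LinearEquiv.map_eq_zero_iff]
      intro h; have := hu i; rw [h, norm_zero] at this; norm_num at this
    have hle : 1 ≤ b * ‖L.symm (u i)‖ := by
      have := T.le_opNorm (L.symm (u i))
      rw [← hL, L.apply_symm_apply, hu i] at this
      exact this.trans (mul_le_mul_of_nonneg_right hb (norm_nonneg _))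
    have e : ∀ t : ℝ, f (x + t • u i) = dens (L.symm (x - o) + t • L.symm (u i)) := fun t => by
      simp only [hfdef, ← map_smul, ← map_add]
      congr 2; abel
    rw [lintegral_congr e]
    refine (line_integral_le _ _ hv).trans (ENNReal.ofReal_le_ofReal ?_)
    rw [div_le_iff₀ (norm_pos_iff.2 hv)]
    nlinarith [Real.pi_pos]
  have htot : ∫⁻ x, f x ≤ ∑ i, ENNReal.ofReal (π * b) * area (orthPlane (u i)) (B i) := by
    calc ∫⁻ x, f x = ∫⁻ x in ⋃ i, cylinderOver (orthPlane (u i)) (B i), f x :=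
          (setLIntegral_eq_of_support_subset fun x hx => hcov (hsupp x hx)).symm
      _ ≤ ∑' i, ∫⁻ x in cylinderOver (orthPlane (u i)) (B i), f x := lintegral_iUnion_le _ _
      _ = ∑ i, ∫⁻ x in cylinderOver (orthPlane (u i)) (B i), f x := tsum_fintype _
      _ ≤ _ := Finset.sum_le_sum fun i _ => cylinder_mass (hu i) (B i) hfm (hline i)
  rw [hint, ← Finset.mul_sum, show π * π * |T.det| = π * (π * |T.det|) by ring,
    ENNReal.ofReal_mul Real.pi_pos.le, ENNReal.ofReal_mul Real.pi_pos.le (q := b), mul_assoc] at htot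
  exact (ENNReal.mul_le_mul_iff_right (ENNReal.ofReal_pos.2 Real.pi_pos).ne' ENNReal.ofReal_ne_top).1 htot

end Vale.Agent.P243.Spheroid
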