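import Vale.Agent.P243.Spheroid.Pair

/-!
A compact set of a finite dimensional space has compact convex hull, and the alternative behind
the first order conditions at an extremal linear map.
-/

namespace Vale.Agent.P243.Spheroid

open Set
open scoped RealInnerProductSpace

/-- The convex hull of a compact set in finite dimension is compact. -/
lemma compact_hull {E : Type*} [NormedAddCommGroup E] [NormedSpace ℝ E] [FiniteDimensional ℝ E]
    {A : Set E} (hA : IsCompact A) : IsCompact (convexHull ℝ A) := by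
  rcases A.eq_empty_or_nonempty with rfl | ⟨a₀, ha₀⟩
  · simp
  set n := Module.finrank ℝ E + 1
  suffices convexHull ℝ A = (fun wx : (Fin n → ℝ) × (Fin n → E) => ∑ i, wx.1 i • wx.2 i) ''
      (stdSimplex ℝ (Fin n) ×ˢ (univ.pi fun _ => A)) by
    rw [this]
    exact ((isCompact_stdSimplex ℝ (Fin n)).prod (isCompact_univ_pi fun _ => hA)).image (by fun_prop)
  refine Subset.antisymm (fun x hx => ?_) ?_
  · obtain ⟨ι, _, z, w, hz, hind, hw, hw1, rfl⟩ := eq_pos_convex_span_of_mem_convexHull hx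
    have hcard : Fintype.card ι ≤ n :=
      hind.card_le_finrank_succ.trans (Nat.succ_le_succ (Submodule.finrank_le _))
    let f : ι ↪ Fin n := (Fintype.equivFin ι).toEmbedding.trans (Fin.castLEEmb hcard)
    refine ⟨(Function.extend f w 0, Function.extend f z fun _ => a₀), ⟨⟨fun i => ?_, ?_⟩, ?_⟩, ?_⟩
    · show 0 ≤ Function.extend f w 0 i
      by_cases hi : i ∈ Set.range f
      · obtain ⟨j, rfl⟩ := hi; simp [f.injective.extend_apply, (hw j).le]
      · rw [Function.extend_apply' _ _ _ hi]; rfl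
    · show ∑ i, Function.extend f w 0 i = 1
      rw [← hw1]
      exact (Fintype.sum_of_injective f f.injective w _
        (fun i hi => by rw [Function.extend_apply' _ _ _ hi]; rfl)
        (fun j => by rw [f.injective.extend_apply])).symm
    · intro i _
      show Function.extend f z (fun _ => a₀) i ∈ A
      by_cases hi : i ∈ Set.range f
      · obtain ⟨j, rfl⟩ := hi; rw [f.injective.extend_apply]; exact hz ⟨j, rfl⟩
      · rw [Function.extend_apply' _ _ _ hi]; exact ha₀
    · show ∑ i, Function.extend f w 0 i • Function.extend f z (fun _ => a₀) i = ∑ j, w j • z j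
      exact (Fintype.sum_of_injective f f.injective (fun j => w j • z j) _
        (fun i hi => by rw [Function.extend_apply' _ _ _ hi]; simp)
        (fun j => by rw [f.injective.extend_apply, f.injective.extend_apply])).symm
  · rintro _ ⟨⟨w, x⟩, ⟨hw, hx⟩, rfl⟩
    exact (convex_convexHull ℝ A).sum_mem (fun i _ => hw.1 i) hw.2
      fun i _ => subset_convexHull ℝ A (hx i (mem_univ i))

/-- The tensor square. -/
def tens (a : R3) : Fin 3 × Fin 3 → ℝ := fun k => a k.1 * a k.2

/-- The tensor of the identity. -/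
def idT : Fin 3 × Fin 3 → ℝ := fun k => if k.1 = k.2 then 1 else 0

lemma tens_pair (a x : R3) : ∑ k, tens a k * (x k.1 * x k.2) = ⟪a, x⟫ ^ 2 := by
  simp [tens, inner3, Fintype.sum_prod_type, Fin.sum_univ_three]; ring

lemma idT_pair (x : R3) : ∑ k, idT k * (x k.1 * x k.2) = ‖x‖ ^ 2 := by
  rw [← real_inner_self_eq_norm_sq, inner3]
  simp [idT, Fintype.sum_prod_type, Fin.sum_univ_three]

/-- A linear map symmetric and with prescribed quadratic form. -/
lemma exists_sym (d : Fin 3 × Fin 3 → ℝ) : ∃ D : R3 →L[ℝ] R3,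
    (∀ x y, ⟪x, D y⟫ = ⟪D x, y⟫) ∧ (∀ x, ⟪x, D x⟫ = ∑ k, d k * tens x k) ∧
      ∑ i : Fin 3, D (EuclideanSpace.single i (1 : ℝ)) i = ∑ k, d k * idT k := by
  let M : Matrix (Fin 3) (Fin 3) ℝ := Matrix.of fun i j => (d (i, j) + d (j, i)) / 2
  refine ⟨LinearMap.toContinuousLinearMap (Matrix.toEuclideanLin M), fun x y => ?_, fun x => ?_, ?_⟩
  · simp [inner3, Matrix.toLpLin_apply, Matrix.mulVec, dotProduct, Fin.sum_univ_three, M]
    ring
  · simp [inner3, Matrix.toLpLin_apply, Matrix.mulVec, dotProduct, Fin.sum_univ_three, M,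
      tens, Fintype.sum_prod_type]
    ring
  · simp [Matrix.toLpLin_apply, Fin.sum_univ_three, M,
      idT, Fintype.sum_prod_type]

/-- Either two families resolve the identity, or a symmetric map is negative on one family and
below its trace on the other. -/
lemma alternative {N V : Set R3} (hN : IsCompact N) (hV : IsCompact V)
    (hNu : ∀ a ∈ N, ‖a‖ = 1) :
    (∃ D : R3 →L[ℝ] R3, (∀ x y, ⟪x, D y⟫ = ⟪D x, y⟫) ∧ (∀ a ∈ N, ⟪a, D a⟫ < 0) ∧
      ∀ a ∈ V, ⟪a, D a⟫ < ∑ i : Fin 3, D (EuclideanSpace.single i (1 : ℝ)) i) ∨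
    ∃ (s t : Finset R3) (c p : R3 → ℝ), (∀ a ∈ s, a ∈ N ∧ 0 ≤ c a) ∧ (∀ a ∈ t, a ∈ V ∧ 0 ≤ p a) ∧
      ∑ a ∈ t, p a = 1 ∧
      ∀ x : R3, ∑ a ∈ s, c a * ⟪a, x⟫ ^ 2 + ∑ a ∈ t, p a * ⟪a, x⟫ ^ 2 = ‖x‖ ^ 2 := by
  classical
  have hct : Continuous tens := by unfold tens; fun_prop
  have hA : IsCompact (tens '' N ∪ (fun a => tens a - idT) '' V) :=
    (hN.image hct).union (hV.image (hct.sub continuous_const))
  by_cases h0 : (0 : Fin 3 × Fin 3 → ℝ) ∈ convexHull ℝ (tens '' N ∪ (fun a => tens a - idT) '' V)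
  swap
  · left
    obtain ⟨f, r, hr, hf⟩ := geometric_hahn_banach_point_closed (convex_convexHull ℝ _)
      (compact_hull hA).isClosed h0
    rw [map_zero] at hr
    have he : ∀ z : Fin 3 × Fin 3 → ℝ, f z = ∑ k, f (Pi.single k 1) * z k := fun z => by
      conv_lhs => rw [← Finset.univ_sum_single z]
      rw [map_sum]
      refine Finset.sum_congr rfl fun k _ => ?_
      rw [show Pi.single k (z k) = z k • Pi.single k (1 : ℝ) by
        rw [← Pi.single_smul, smul_eq_mul, mul_one], map_smul, smul_eq_mul, mul_comm]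
    obtain ⟨D, hsym, hq, htr⟩ := exists_sym fun k => -f (Pi.single k 1)
    refine ⟨D, hsym, fun a ha => ?_, fun a ha => ?_⟩
    · have := hf _ (subset_convexHull ℝ _ (Or.inl ⟨a, ha, rfl⟩))
      rw [he] at this
      simp only [hq, neg_mul, Finset.sum_neg_distrib]
      linarith
    · have := hf _ (subset_convexHull ℝ _ (Or.inr ⟨a, ha, rfl⟩))
      rw [he] at this
      simp only [Pi.sub_apply, mul_sub, Finset.sum_sub_distrib] at this
      simp only [hq, htr, neg_mul, Finset.sum_neg_distrib]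
      linarith
  right
  obtain ⟨ι, _, z, w, hz, -, hw, hw1, hsum⟩ := eq_pos_convex_span_of_mem_convexHull h0
  let P : ι → Prop := fun i => z i ∈ tens '' N
  have hex : ∀ i, ∃ a : R3, if P i then a ∈ N ∧ z i = tens a
      else a ∈ V ∧ z i = tens a - idT := fun i => by
    by_cases h : P i
    · obtain ⟨a, ha, e⟩ := h
      exact ⟨a, by rw [if_pos (show P i from ⟨a, ha, e⟩)]; exact ⟨ha, e.symm⟩⟩
    · obtain ⟨a, ha, e⟩ := (hz ⟨i, rfl⟩).resolve_left h
      exact ⟨a, by rw [if_neg h]; exact ⟨ha, e.symm⟩⟩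
  choose g hg using hex
  have hev : ∀ x : R3, ∑ i, w i * (if P i then ⟪g i, x⟫ ^ 2 else ⟪g i, x⟫ ^ 2 - ‖x‖ ^ 2) = 0 := by
    intro x
    have h := congrArg (fun z : Fin 3 × Fin 3 → ℝ => ∑ k, z k * (x k.1 * x k.2)) hsum
    simp only [Finset.sum_apply, Pi.smul_apply, smul_eq_mul, Pi.zero_apply, zero_mul,
      Finset.sum_const_zero, Finset.sum_mul, mul_assoc] at h
    rw [Finset.sum_comm] at h
    simp only [← Finset.mul_sum] at h
    rw [← h]
    refine Finset.sum_congr rfl fun i _ => ?_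
    congr 1
    have := hg i
    split_ifs with hi
    · rw [if_pos hi] at this; rw [this.2, tens_pair]
    · rw [if_neg hi] at this
      simp only [this.2, Pi.sub_apply, sub_mul, Finset.sum_sub_distrib, tens_pair, idT_pair]
  set s₀ := Finset.univ.filter P with hs₀
  set t₀ := Finset.univ.filter fun i => ¬ P i with ht₀
  set q := ∑ i ∈ t₀, w i with hq
  have hid : ∀ x : R3, ∑ i ∈ s₀, w i * ⟪g i, x⟫ ^ 2 + ∑ i ∈ t₀, w i * ⟪g i, x⟫ ^ 2 = q * ‖x‖ ^ 2 := by
    intro x
    have h := hev x
    simp only [mul_ite, Finset.sum_ite, mul_sub, Finset.sum_sub_distrib, ← Finset.sum_mul] at h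
    linarith
  have hq0 : 0 < q := by
    rcases (Finset.sum_nonneg fun i (_ : i ∈ t₀) => (hw i).le).eq_or_lt with h | h
    swap
    · exact h
    exfalso
    have hall : ∀ i, P i := fun i => by
      by_contra hi
      have hmem : i ∈ t₀ := by rw [ht₀, Finset.mem_filter]; exact ⟨Finset.mem_univ _, hi⟩
      exact (hw i).ne' ((Finset.sum_eq_zero_iff_of_nonneg fun j _ => (hw j).le).1 h.symm i hmem)
    have e : ∀ i, ∑ r : Fin 3, ⟪g i, EuclideanSpace.single r (1 : ℝ)⟫ ^ 2 = 1 := fun i => by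
      have hu : ‖g i‖ = 1 := by have := hg i; rw [if_pos (hall i)] at this; exact hNu _ this.1
      simp only [real_inner_comm _ (g i), sum_sq_coords, hu, one_pow]
    have h3 := Finset.sum_congr (s₁ := (Finset.univ : Finset (Fin 3))) rfl fun r _ =>
      hev (EuclideanSpace.single r (1 : ℝ))
    simp only [hall, if_true, Finset.sum_const_zero] at h3
    rw [Finset.sum_comm] at h3
    simp only [← Finset.mul_sum, e, mul_one, hw1] at h3
    exact one_ne_zero h3
  refine ⟨s₀.image g, t₀.image g, fun a => (∑ i ∈ s₀.filter (g · = a), w i) / q,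
    fun a => (∑ i ∈ t₀.filter (g · = a), w i) / q, ?_, ?_, ?_, fun x => ?_⟩
  · intro a ha
    obtain ⟨i, hi, rfl⟩ := Finset.mem_image.1 ha
    refine ⟨?_, div_nonneg (Finset.sum_nonneg fun j _ => (hw j).le) hq0.le⟩
    have := hg i; rw [if_pos (Finset.mem_filter.1 hi).2] at this; exact this.1
  · intro a ha
    obtain ⟨i, hi, rfl⟩ := Finset.mem_image.1 ha
    refine ⟨?_, div_nonneg (Finset.sum_nonneg fun j _ => (hw j).le) hq0.le⟩
    have := hg i; rw [if_neg (Finset.mem_filter.1 hi).2] at this; exact this.1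
  · rw [← Finset.sum_div, Finset.sum_fiberwise_of_maps_to fun i hi => Finset.mem_image_of_mem g hi,
      div_self hq0.ne']
  · have key : ∀ r : Finset ι, ∑ a ∈ r.image g, (∑ i ∈ r.filter (g · = a), w i) / q * ⟪a, x⟫ ^ 2 =
        (∑ i ∈ r, w i * ⟪g i, x⟫ ^ 2) / q := by
      intro r
      rw [Finset.sum_div, ← Finset.sum_fiberwise_of_maps_to
        (fun i hi => Finset.mem_image_of_mem g hi) (fun i => w i * ⟪g i, x⟫ ^ 2 / q)]
      refine Finset.sum_congr rfl fun a _ => ?_
      rw [Finset.sum_div, Finset.sum_mul]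
      refine Finset.sum_congr rfl fun i hi => ?_
      rw [(Finset.mem_filter.1 hi).2]; ring
    rw [key, key, ← add_div, hid, mul_div_cancel_left₀ _ hq0.ne']

end Vale.Agent.P243.Spheroid
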