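import Vale.Agent.P243.Spheroid.Ball
import Vale.Agent.P243.Spheroid.Contact

/-!
The extremal ellipsoid in a centrally symmetric body, maximising |det T| / ‖T‖, and the bound
π/(4√2) for cylinder coverings of centrally symmetric bodies.
-/

namespace Vale.Agent.P243.Spheroid

open Set MeasureTheory Filter Topology
open scoped RealInnerProductSpace ENNReal Real

/-- One quadratic step stays below a linear bound when it does so at first order. -/
lemma uniform_step {α : Type*} [TopologicalSpace α] {S : Set α} (hS : IsCompact S) {f g : α → ℝ}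
    (hf : Continuous f) (hg : Continuous g) {B L : ℝ} (hB : ∀ x ∈ S, f x ≤ B)
    (hgL : ∀ x ∈ S, f x = B → g x < L) (C : ℝ) :
    ∃ t₀ : ℝ, 0 < t₀ ∧ ∀ t : ℝ, 0 < t → t ≤ t₀ → ∀ x ∈ S,
      f x + 2 * t * g x + t ^ 2 * C ≤ B + 2 * t * L := by
  rcases S.eq_empty_or_nonempty with rfl | hne
  · exact ⟨1, one_pos, by simp⟩
  obtain ⟨x₀, hx₀, hG⟩ := hS.exists_isMaxOn hne hg.continuousOn
  obtain ⟨L', hL', hlt⟩ : ∃ L' < L, ∀ x ∈ S, f x = B → g x < L' := by
    have hc : IsCompact (S ∩ {x | f x = B}) := hS.inter_right (isClosed_eq hf continuous_const)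
    rcases (S ∩ {x | f x = B}).eq_empty_or_nonempty with he | hn
    · exact ⟨L - 1, by linarith, fun x hx hxe => absurd (show x ∈ S ∩ _ from ⟨hx, hxe⟩)
        (eq_empty_iff_forall_notMem.1 he x)⟩
    · obtain ⟨x₁, hx₁, hm⟩ := hc.exists_isMaxOn hn hg.continuousOn
      have := hgL x₁ hx₁.1 hx₁.2
      exact ⟨(g x₁ + L) / 2, by linarith, fun x hx hxe =>
        lt_of_le_of_lt (hm ⟨hx, hxe⟩) (by linarith)⟩
  set Z := S ∩ {x | L' ≤ g x}
  have hZ : IsCompact Z := hS.inter_right (isClosed_le continuous_const hg)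
  obtain ⟨δ, hδ, hfd⟩ : ∃ δ > 0, ∀ x ∈ Z, f x ≤ B - δ := by
    rcases Z.eq_empty_or_nonempty with he | hn
    · exact ⟨1, one_pos, fun x hx => absurd hx (eq_empty_iff_forall_notMem.1 he x)⟩
    · obtain ⟨x₁, hx₁, hm⟩ := hZ.exists_isMaxOn hn hf.continuousOn
      have : f x₁ < B := lt_of_le_of_ne (hB x₁ hx₁.1) fun h =>
        (hlt x₁ hx₁.1 h).not_ge hx₁.2
      exact ⟨B - f x₁, by linarith, fun x hx => by linarith [show f x ≤ f x₁ from hm hx]⟩
  set A := 2 * |g x₀ - L| + |C| + 1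
  refine ⟨min 1 (min (δ / A) ((L - L') / (|C| + 1))), ?_, fun t ht htle x hx => ?_⟩
  · exact lt_min one_pos (lt_min (by positivity) (div_pos (by linarith) (by positivity)))
  have ht1 : t ≤ 1 := htle.trans (min_le_left _ _)
  have htA : t * A ≤ δ := (le_div_iff₀ (by positivity)).1
    (htle.trans ((min_le_right _ _).trans (min_le_left _ _)))
  have htC : t * (|C| + 1) ≤ L - L' := (le_div_iff₀ (by positivity)).1
    (htle.trans ((min_le_right _ _).trans (min_le_right _ _)))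
  have hCt : t ^ 2 * C ≤ t * (t * |C|) := by nlinarith [le_abs_self C, sq_nonneg t]
  by_cases hxZ : L' ≤ g x
  · have := hfd x ⟨hx, hxZ⟩
    have h1 : g x - L ≤ |g x₀ - L| := le_trans (by linarith [show g x ≤ g x₀ from hG hx]) (le_abs_self _)
    nlinarith [mul_le_mul_of_nonneg_left h1 ht.le,
      mul_le_mul_of_nonneg_left ht1 (mul_nonneg ht.le (abs_nonneg C)), abs_nonneg C]
  · nlinarith [hB x hx, abs_nonneg C, not_le.1 hxZ]

/-- The symmetric slabs around K seen through T: vectors ν with |⟪ν, y⟫| ≤ 1 on the pullback. -/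
def polarSet (K : Set R3) (o : R3) (T : R3 →L[ℝ] R3) : Set R3 :=
  {w | ∀ y : R3, o + T y ∈ K → ⟪w, y⟫ ≤ 1}

variable {K : Set R3} {o : R3} {T : R3 →L[ℝ] R3}

lemma norm_le_one_of_polar (hT : ∀ v : R3, ‖v‖ ≤ 1 → o + T v ∈ K) {w : R3}
    (hw : w ∈ polarSet K o T) : ‖w‖ ≤ 1 := by
  rcases eq_or_ne w 0 with rfl | h
  · simp
  · have h1 := hw (‖w‖⁻¹ • w) (hT _ (by rw [norm_smul, norm_inv, norm_norm, inv_mul_cancel₀ (norm_ne_zero_iff.2 h)]))
    rw [real_inner_smul_right, real_inner_self_eq_norm_sq] at h1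
    field_simp at h1
    exact h1

lemma polar_abs (hsym : ∀ x ∈ K, (2 : ℝ) • o - x ∈ K) {w : R3} (hw : w ∈ polarSet K o T) {y : R3}
    (hy : o + T y ∈ K) : |⟪w, y⟫| ≤ 1 := by
  refine abs_le.2 ⟨?_, hw y hy⟩
  have := hw (-y) (by
    have h := hsym _ hy
    rw [map_neg]
    convert h using 1
    module)
  rw [inner_neg_right] at this
  linarith

/-- A first order decrease on all contacts keeps a perturbed ellipsoid inside. -/
lemma step_feasible (hK : IsCompact K) (hc : Convex ℝ K)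
    (hT : ∀ v : R3, ‖v‖ ≤ 1 → o + T v ∈ K) (D : R3 →L[ℝ] R3)
    (hD : ∀ x y, ⟪x, D y⟫ = ⟪D x, y⟫)
    (hneg : ∀ w ∈ polarSet K o T, ‖w‖ = 1 → ⟪w, D w⟫ < 0) :
    ∃ t₀ : ℝ, 0 < t₀ ∧ ∀ t : ℝ, 0 < t → t ≤ t₀ →
      ∀ v : R3, ‖v‖ ≤ 1 → o + T (v + t • D v) ∈ K := by
  have hPc : IsCompact (polarSet K o T) := by
    refine IsCompact.of_isClosed_subset (isCompact_closedBall 0 1) ?_
      fun w hw => by simpa using norm_le_one_of_polar hT hw
    simp only [polarSet, ofPred_forall]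
    exact isClosed_iInter fun y => isClosed_iInter fun _ => isClosed_le (by fun_prop) continuous_const
  obtain ⟨t₀, ht₀, h⟩ := uniform_step hPc (f := fun w : R3 => ‖w‖ ^ 2) (g := fun w => ⟪w, D w⟫)
    (by fun_prop) (by fun_prop) (B := 1) (L := 0)
    (fun w hw => pow_le_one₀ (norm_nonneg _) (norm_le_one_of_polar hT hw))
    (fun w hw h1 => hneg w hw ((pow_eq_one_iff_of_nonneg (norm_nonneg w) two_ne_zero).1 h1))
    (‖D‖ ^ 2)
  refine ⟨t₀, ht₀, fun t ht htle v hv => by_contra fun hnot => ?_⟩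
  set K' := (fun y => o + T y) ⁻¹' K
  have hK'c : Convex ℝ K' := fun a ha b hb r s hr hs hrs => by
    have := hc ha hb hr hs hrs
    show o + T (r • a + s • b) ∈ K
    convert this using 1
    rw [map_add, map_smul, map_smul, smul_add, smul_add]
    conv_lhs => rw [← one_smul ℝ o, ← hrs, add_smul]
    abel
  obtain ⟨f, r, hlt, hr⟩ := geometric_hahn_banach_closed_point hK'c
    (hK.isClosed.preimage (continuous_const.add T.continuous)) (show v + t • D v ∉ K' from hnot)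
  have hr0 : 0 < r := by
    have := hlt 0 (show o + T 0 ∈ K from hT 0 (by simp))
    simpa using this
  set w := r⁻¹ • (InnerProductSpace.toDual ℝ R3).symm f
  have hwy : ∀ y, ⟪w, y⟫ = f y / r := fun y => by
    rw [real_inner_smul_left, InnerProductSpace.toDual_symm_apply]; ring
  have hwP : w ∈ polarSet K o T := fun y hy => by
    rw [hwy, div_le_one hr0]; exact (hlt y hy).le
  clear_value w
  have h1 : 1 < ⟪w, v + t • D v⟫ := by rw [hwy, lt_div_iff₀ hr0, one_mul]; exact hr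
  have e : ⟪w, v + t • D v⟫ = ⟪w + t • D w, v⟫ := by
    rw [inner_add_right, inner_add_left, real_inner_smul_right, real_inner_smul_left, hD]
  have h2 := h t ht htle w hwP
  have h3 : ‖w + t • D w‖ ^ 2 ≤ 1 := by
    rw [norm_add_sq_real, norm_smul, real_inner_smul_right, mul_pow, Real.norm_eq_abs, sq_abs]
    have : ‖D w‖ ≤ ‖D‖ := D.unit_le_opNorm w (norm_le_one_of_polar hT hwP)
    have : t ^ 2 * ‖D w‖ ^ 2 ≤ t ^ 2 * ‖D‖ ^ 2 := by gcongr
    linarith
  have h4 := real_inner_le_norm (w + t • D w) v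
  have h5 : ‖w + t • D w‖ ≤ 1 := (pow_le_one_iff_of_nonneg (norm_nonneg _) two_ne_zero).1 h3
  nlinarith [mul_le_mul h5 hv (norm_nonneg v) zero_le_one]

/-- At a most stretched vector the map T preserves inner products up to the factor ‖T‖². -/
lemma inner_top {v : R3} (hv : ‖T v‖ = ‖T‖ * ‖v‖) (w : R3) :
    ⟪T v, T w⟫ = ‖T‖ ^ 2 * ⟪v, w⟫ := by
  by_contra hne
  set a := ⟪T v, T w⟫ - ‖T‖ ^ 2 * ⟪v, w⟫
  set b := ‖T‖ ^ 2 * ‖w‖ ^ 2 + 1
  have hb : 0 < b := by positivity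
  set s := a / b
  have h := T.le_opNorm (v + s • w)
  have h2 : ‖T (v + s • w)‖ ^ 2 ≤ ‖T‖ ^ 2 * ‖v + s • w‖ ^ 2 := by
    rw [← mul_pow]; exact pow_le_pow_left₀ (norm_nonneg _) h 2
  simp only [map_add, map_smul, norm_add_sq_real, real_inner_smul_right, norm_smul, mul_pow,
    Real.norm_eq_abs, sq_abs, hv] at h2
  have ha : a ≠ 0 := sub_ne_zero.2 hne
  have : 0 < a ^ 2 / b := by positivity
  have : 2 * s * a + s ^ 2 * (‖T w‖ ^ 2 - ‖T‖ ^ 2 * ‖w‖ ^ 2) ≤ 0 := by
    simp only [a]; nlinarith [h2]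
  have hsa : s * a = a ^ 2 / b := by simp only [s]; ring
  have hsb : s ^ 2 * b = a ^ 2 / b := by simp only [s]; field_simp
  nlinarith [mul_nonneg (sq_nonneg s) (sq_nonneg ‖T w‖), sq_nonneg s]

/-- A first order gain of trace over stretching improves |det T| / ‖T‖. -/
lemma step_gain (hdet : T.det ≠ 0) (D : R3 →L[ℝ] R3)
    (hV : ∀ v : R3, ‖v‖ = 1 → ‖T v‖ = ‖T‖ →
      ⟪v, D v⟫ < ∑ i : Fin 3, D (EuclideanSpace.single i (1 : ℝ)) i) :
    ∀ t₁ : ℝ, 0 < t₁ → ∃ t : ℝ, 0 < t ∧ t ≤ t₁ ∧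
      |T.det| / ‖T‖ < |(T * (1 + t • D)).det| / ‖T * (1 + t • D)‖ := by
  intro t₁ ht₁
  set τ := ∑ i : Fin 3, D (EuclideanSpace.single i (1 : ℝ)) i
  set b := ‖T‖
  have hb : 0 < b := norm_pos_iff.2 fun h => hdet (by simp [h, ContinuousLinearMap.det])
  -- the determinant of the step is a polynomial with linear term τ
  have hdet1 : ∀ t : ℝ, ∃ c₂ c₃ : ℝ, |c₂| + |c₃| ≤ 60 * (1 + ‖D‖) ^ 3 ∧
      (1 + t • D).det = 1 + t * τ + t ^ 2 * c₂ + t ^ 3 * c₃ := by
    intro t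
    set d : Fin 3 → Fin 3 → ℝ := fun i j => D (EuclideanSpace.single j (1 : ℝ)) i
    refine ⟨d 0 0 * d 1 1 + d 0 0 * d 2 2 + d 1 1 * d 2 2 - d 0 1 * d 1 0 - d 0 2 * d 2 0
        - d 1 2 * d 2 1,
      d 0 0 * d 1 1 * d 2 2 - d 0 0 * d 1 2 * d 2 1 - d 0 1 * d 1 0 * d 2 2
        + d 0 1 * d 1 2 * d 2 0 + d 0 2 * d 1 0 * d 2 1 - d 0 2 * d 1 1 * d 2 0, ?_, ?_⟩
    · have hd : ∀ i j, |d i j| ≤ 1 + ‖D‖ := fun i j => by
        have h1 := (PiLp.norm_apply_le (D (EuclideanSpace.single j (1 : ℝ))) i).trans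
          (D.unit_le_opNorm _ (by simp))
        rw [Real.norm_eq_abs] at h1
        exact h1.trans (by linarith)
      set M := 1 + ‖D‖
      have hM : 1 ≤ M := by simp [M]
      have h2 : ∀ i j k l, |d i j * d k l| ≤ M ^ 2 := fun i j k l => by
        rw [abs_mul, sq]; exact mul_le_mul (hd i j) (hd k l) (abs_nonneg _) (by linarith)
      have h3 : ∀ i j k l m n, |d i j * d k l * d m n| ≤ M ^ 3 := fun i j k l m n => by
        rw [abs_mul, pow_succ]; exact mul_le_mul (h2 i j k l) (hd m n) (abs_nonneg _) (by positivity)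
      have := pow_le_pow_right₀ hM (show 2 ≤ 3 by norm_num)
      refine le_trans (add_le_add (le_trans (abs_sub _ _) (add_le_add (le_trans (abs_sub _ _)
        (add_le_add (le_trans (abs_sub _ _) (add_le_add (le_trans (abs_add_le _ _)
        (add_le_add (le_trans (abs_add_le _ _) (add_le_add (h2 0 0 1 1) (h2 0 0 2 2)))
        (h2 1 1 2 2))) (h2 0 1 1 0))) (h2 0 2 2 0))) (h2 1 2 2 1)))
        (le_trans (abs_sub _ _) (add_le_add (le_trans (abs_add_le _ _) (add_le_add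
        (le_trans (abs_add_le _ _) (add_le_add (le_trans (abs_sub _ _) (add_le_add
        (le_trans (abs_sub _ _) (add_le_add (h3 0 0 1 1 2 2) (h3 0 0 1 2 2 1)))
        (h3 0 1 1 0 2 2))) (h3 0 1 1 2 2 0))) (h3 0 2 1 0 2 1))) (h3 0 2 1 1 2 0)))) ?_
      nlinarith
    · rw [ContinuousLinearMap.det, ← LinearMap.det_toMatrix
        (EuclideanSpace.basisFun (Fin 3) ℝ).toBasis, Matrix.det_fin_three]
      simp [LinearMap.toMatrix_apply, τ, Fin.sum_univ_three, d]
      ring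
  -- room between the largest first order stretching and the trace
  set S := Metric.sphere (0 : R3) 1
  have hS : IsCompact S := isCompact_sphere _ _
  have hgS : ∀ v ∈ S, ‖T v‖ ^ 2 = b ^ 2 → ⟪T v, T (D v)⟫ < b ^ 2 * τ := by
    intro v hv h
    have hv1 : ‖v‖ = 1 := by simpa [S] using hv
    have hTv : ‖T v‖ = b := (sq_eq_sq₀ (norm_nonneg _) hb.le).1 h
    rw [inner_top (by rw [hTv, hv1, mul_one]) (D v)]
    exact mul_lt_mul_of_pos_left (hV v hv1 hTv) (by positivity)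
  obtain ⟨L, hL, hLS⟩ : ∃ L < b ^ 2 * τ, ∀ v ∈ S, ‖T v‖ ^ 2 = b ^ 2 → ⟪T v, T (D v)⟫ < L := by
    have hc : IsCompact (S ∩ {v | ‖T v‖ ^ 2 = b ^ 2}) :=
      hS.inter_right (isClosed_eq (by fun_prop) continuous_const)
    rcases (S ∩ {v | ‖T v‖ ^ 2 = b ^ 2}).eq_empty_or_nonempty with he | hn
    · exact ⟨b ^ 2 * τ - 1, by linarith, fun x hx hxe => absurd (show x ∈ S ∩ _ from ⟨hx, hxe⟩)
        (eq_empty_iff_forall_notMem.1 he x)⟩
    · obtain ⟨x₁, hx₁, hm⟩ := hc.exists_isMaxOn hn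
        (show Continuous fun v => ⟪T v, T (D v)⟫ by fun_prop).continuousOn
      have := hgS x₁ hx₁.1 hx₁.2
      exact ⟨(⟪T x₁, T (D x₁)⟫ + b ^ 2 * τ) / 2, by linarith, fun x hx hxe =>
        lt_of_le_of_lt (hm ⟨hx, hxe⟩) (by linarith)⟩
  set l := L / b ^ 2
  have hl : l < τ := by rw [div_lt_iff₀ (by positivity)]; linarith
  obtain ⟨t₂, ht₂, h⟩ := uniform_step hS (f := fun v => ‖T v‖ ^ 2) (g := fun v => ⟪T v, T (D v)⟫)
    (by fun_prop) (by fun_prop) (B := b ^ 2) (L := L)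
    (fun v hv => pow_le_pow_left₀ (norm_nonneg _) (T.unit_le_opNorm v (by
      simp only [S, mem_sphere_zero_iff_norm] at hv; linarith)) 2) hLS (‖T * D‖ ^ 2)
  set M := 60 * (1 + ‖D‖) ^ 3
  set t := min (min t₁ t₂) (min (1 / 2) (min ((τ - l) / (M + 1)) (1 / (2 * (|l| + |τ| + M + 1)))))
  have hM : 0 < M := by positivity
  have ht : 0 < t := lt_min (lt_min ht₁ ht₂) (lt_min (by norm_num)
    (lt_min (div_pos (by linarith) (by linarith)) (by positivity)))
  have htt₁ : t ≤ t₁ := (min_le_left _ _).trans (min_le_left _ _)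
  have htt₂ : t ≤ t₂ := (min_le_left _ _).trans (min_le_right _ _)
  have ht3 : t ≤ 1 / 2 := (min_le_right _ _).trans (min_le_left _ _)
  have ht4 : t * (M + 1) ≤ τ - l := (le_div_iff₀ (by linarith)).1
    ((min_le_right _ _).trans ((min_le_right _ _).trans (min_le_left _ _)))
  have ht5 : t * (2 * (|l| + |τ| + M + 1)) ≤ 1 := (le_div_iff₀ (by positivity)).1
    ((min_le_right _ _).trans ((min_le_right _ _).trans (min_le_right _ _)))
  refine ⟨t, ht, htt₁, ?_⟩
  have hl1 : 0 < 1 + t * l := by nlinarith [neg_abs_le l, abs_nonneg τ]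
  have hnorm : ‖T * (1 + t • D)‖ ≤ b * (1 + t * l) := by
    refine ContinuousLinearMap.opNorm_le_of_unit_norm (by positivity) fun v hv => ?_
    have h1 := h t ht htt₂ v (by simpa [S] using hv)
    have h2 : ‖(T * (1 + t • D)) v‖ ^ 2 ≤ b ^ 2 + 2 * t * L := by
      have : (T * (1 + t • D)) v = T v + t • T (D v) := by simp
      rw [this, norm_add_sq_real, norm_smul, real_inner_smul_right, mul_pow, Real.norm_eq_abs, sq_abs]
      have h3 : ‖T (D v)‖ ≤ ‖T * D‖ := (T * D).unit_le_opNorm v hv.le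
      have : t ^ 2 * ‖T (D v)‖ ^ 2 ≤ t ^ 2 * ‖T * D‖ ^ 2 := by gcongr
      linarith
    have hLl : L = b ^ 2 * l := by simp only [l]; field_simp
    refine (pow_le_pow_iff_left₀ (norm_nonneg _) (by positivity) two_ne_zero).1 (h2.trans ?_)
    rw [hLl]; nlinarith [sq_nonneg (t * l), sq_nonneg b]
  obtain ⟨c₂, c₃, hc, hd⟩ := hdet1 t
  have hlow : 1 + t * l < (1 + t • D).det := by
    rw [hd]
    have h1 : -(t ^ 2 * |c₂|) ≤ t ^ 2 * c₂ := by nlinarith [neg_abs_le c₂, sq_nonneg t]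
    have h2 : -(t ^ 2 * |c₃|) ≤ t ^ 3 * c₃ := by
      have : |t ^ 3 * c₃| ≤ t ^ 2 * |c₃| := by
        rw [abs_mul, abs_of_pos (by positivity)]
        exact mul_le_mul_of_nonneg_right (by nlinarith) (abs_nonneg _)
      linarith [neg_abs_le (t ^ 3 * c₃)]
    nlinarith
  have hmul : (T * (1 + t • D)).det = T.det * (1 + t • D).det := LinearMap.det_comp _ _
  have hpos : 0 < |(T * (1 + t • D)).det| := by
    rw [hmul, abs_pos]; exact mul_ne_zero hdet (by linarith)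
  have hnpos : 0 < ‖T * (1 + t • D)‖ := norm_pos_iff.2 fun h => by
    rw [h] at hpos; simp [ContinuousLinearMap.det] at hpos
  calc |T.det| / b = |T.det| * (1 + t * l) / (b * (1 + t * l)) := by field_simp
    _ < |T.det| * (1 + t • D).det / (b * (1 + t * l)) := by gcongr
    _ ≤ |T.det| * (1 + t • D).det / ‖T * (1 + t • D)‖ := by
        gcongr; exact mul_nonneg (abs_nonneg _) (by linarith)
    _ = _ := by rw [hmul, abs_mul, abs_of_pos (lt_trans hl1 hlow)]

lemma det_le_cube (T : R3 →L[ℝ] R3) : |T.det| ≤ ‖T‖ ^ 3 := by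
  have hsub : T '' Metric.closedBall 0 1 ⊆ Metric.closedBall 0 ‖T‖ := by
    rintro _ ⟨x, hx, rfl⟩
    rw [mem_closedBall_zero_iff] at hx ⊢
    exact T.unit_le_opNorm x hx
  have h := measure_mono (μ := (volume : Measure R3)) hsub
  have e : T '' Metric.closedBall (0 : R3) 1 = (T : R3 →ₗ[ℝ] R3) '' Metric.closedBall 0 1 := rfl
  rw [e, Measure.addHaar_image_linearMap, Measure.addHaar_closedBall' _ _ (norm_nonneg T),
    finrank_euclideanSpace_fin,
    ENNReal.mul_le_mul_iff_left (Metric.measure_closedBall_pos _ _ one_pos).ne'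
      measure_closedBall_lt_top.ne, ENNReal.ofReal_le_ofReal_iff (by positivity)] at h
  exact h

/-- The extremal map. -/
lemma exists_extremal (hK : IsCompact K) {r : ℝ} (hr : 0 < r) (hball : Metric.closedBall o r ⊆ K) :
    ∃ T : R3 →L[ℝ] R3, (∀ v : R3, ‖v‖ ≤ 1 → o + T v ∈ K) ∧ T.det ≠ 0 ∧
      ∀ T' : R3 →L[ℝ] R3, (∀ v : R3, ‖v‖ ≤ 1 → o + T' v ∈ K) →
        |T'.det| / ‖T'‖ ≤ |T.det| / ‖T‖ := by
  set F : (R3 →L[ℝ] R3) → ℝ := fun T => |T.det| / ‖T‖
  set T₀ : R3 →L[ℝ] R3 := r • 1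
  have hT₀ : ∀ v : R3, ‖v‖ ≤ 1 → o + T₀ v ∈ K := fun v hv => hball (by
    rw [mem_closedBall_iff_norm, add_sub_cancel_left]
    simp [T₀, norm_smul, abs_of_pos hr]; nlinarith)
  have hn₀ : ‖T₀‖ = r := by simp [T₀, norm_smul, abs_of_pos hr]
  have hd₀ : T₀.det = r ^ 3 := by simp [T₀, ContinuousLinearMap.det, LinearMap.det_smul]
  have hF₀ : F T₀ = r ^ 2 := by
    simp only [F, hn₀, hd₀, abs_of_pos (pow_pos hr 3)]; field_simp
  set S := {T : R3 →L[ℝ] R3 | (∀ v : R3, ‖v‖ ≤ 1 → o + T v ∈ K) ∧ r ≤ ‖T‖}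
  obtain ⟨R, hR⟩ := (Metric.isBounded_iff_subset_closedBall o).1 hK.isBounded
  have hSc : IsCompact S := by
    refine IsCompact.of_isClosed_subset (isCompact_closedBall (0 : R3 →L[ℝ] R3) (max R 0)) ?_ ?_
    · refine IsClosed.inter (s₁ := {T : R3 →L[ℝ] R3 | ∀ v : R3, ‖v‖ ≤ 1 → o + T v ∈ K}) ?_
        (isClosed_le continuous_const continuous_norm)
      rw [show {T : R3 →L[ℝ] R3 | ∀ v : R3, ‖v‖ ≤ 1 → o + T v ∈ K} =
          ⋂ v, ⋂ (_ : ‖v‖ ≤ 1), (fun T : R3 →L[ℝ] R3 => o + T v) ⁻¹' K by ext T; simp]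
      exact isClosed_iInter fun v => isClosed_iInter fun _ =>
        hK.isClosed.preimage (continuous_const.add (ContinuousLinearMap.apply ℝ R3 v).continuous)
    · intro T hT
      rw [mem_closedBall_zero_iff]
      refine ContinuousLinearMap.opNorm_le_of_unit_norm (le_max_right _ _) fun v hv => ?_
      have := hR (hT.1 v hv.le)
      rw [mem_closedBall_iff_norm, add_sub_cancel_left] at this
      exact this.trans (le_max_left _ _)
  have hFc : ContinuousOn F S :=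
    (continuous_abs.comp ContinuousLinearMap.continuous_det).continuousOn.div
      continuous_norm.continuousOn fun T hT => (lt_of_lt_of_le hr hT.2).ne'
  obtain ⟨T, hTS, hmax⟩ := hSc.exists_isMaxOn ⟨T₀, hT₀, hn₀.ge⟩ hFc
  have h0 : r ^ 2 ≤ F T := hF₀ ▸ hmax (show T₀ ∈ S from ⟨hT₀, hn₀.ge⟩)
  refine ⟨T, hTS.1, fun h => ?_, fun T' hT' => ?_⟩
  · simp only [F, h, abs_zero, zero_div] at h0
    nlinarith
  · rcases le_or_gt r ‖T'‖ with h | h
    · exact hmax (show T' ∈ S from ⟨hT', h⟩)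
    · refine le_trans (le_trans (div_le_of_le_mul₀ (norm_nonneg _) (by positivity) ?_)
        (pow_le_pow_left₀ (norm_nonneg _) h.le 2)) h0
      have := det_le_cube T'
      calc |T'.det| ≤ ‖T'‖ ^ 3 := this
        _ = ‖T'‖ ^ 2 * ‖T'‖ := by ring

/-- Every cylinder covering of a centrally symmetric body has total base area at least π/(4√2)
times the least shadow. -/
theorem symmetric_bound (hK : IsCompact K) (hc : Convex ℝ K) (hint : (interior K).Nonempty)
    (hsym : ∀ x ∈ K, (2 : ℝ) • o - x ∈ K) {m : ℕ} (u : Fin m → R3) (hu : ∀ i, ‖u i‖ = 1)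
    (B : ∀ i, Set ↥(orthPlane (u i))) (hcov : K ⊆ ⋃ i, cylinderOver (orthPlane (u i)) (B i)) :
    ENNReal.ofReal (π / (4 * √2)) * (⨅ (v : R3) (_ : ‖v‖ = 1), shadowArea v K) ≤
      ∑ i, area (orthPlane (u i)) (B i) := by
  obtain ⟨p, hp⟩ := hint
  obtain ⟨ε, hε, hεK⟩ := Metric.mem_nhds_iff.1 (mem_interior_iff_mem_nhds.1 hp)
  have hball : Metric.closedBall o (ε / 2) ⊆ K := by
    intro x hx
    rw [mem_closedBall_iff_norm] at hx
    have h1 : p + (x - o) ∈ K := hεK (by rw [mem_ball_iff_norm, add_sub_cancel_left]; linarith)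
    have h2 : (2 : ℝ) • o - (p - (x - o)) ∈ K := hsym _ (hεK (by
      rw [mem_ball_iff_norm, sub_sub_cancel_left, norm_neg]; linarith))
    have h3 := hc h1 h2 (by norm_num : (0 : ℝ) ≤ 1 / 2) (by norm_num : (0 : ℝ) ≤ 1 / 2) (by norm_num)
    convert h3 using 1
    module
  obtain ⟨T, hT, hdet, hmax⟩ := exists_extremal hK (by linarith : 0 < ε / 2) hball
  set b := ‖T‖
  have hb : 0 < b := norm_pos_iff.2 fun h => hdet (by simp [h, ContinuousLinearMap.det])
  set N := polarSet K o T ∩ Metric.sphere 0 1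
  set V := Metric.sphere (0 : R3) 1 ∩ {v | ‖T v‖ = b}
  have hPcl : IsClosed (polarSet K o T) := by
    simp only [polarSet, ofPred_forall]
    exact isClosed_iInter fun y => isClosed_iInter fun _ => isClosed_le (by fun_prop) continuous_const
  rcases alternative ((isCompact_sphere (0 : R3) 1).inter_left hPcl)
      (V := V) ((isCompact_sphere (0 : R3) 1).inter_right (isClosed_eq T.continuous.norm continuous_const))
      (fun a ha => by simpa using ha.2) with ⟨D, hD, hDN, hDV⟩ | ⟨s, t, c, q, hs, ht, hq1, hres⟩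
  · exfalso
    obtain ⟨t₁, ht₁, hfeas⟩ := step_feasible hK hc hT D hD fun w hw h1 =>
      hDN w ⟨hw, by simp [h1]⟩
    obtain ⟨t, ht, htle, hgain⟩ := step_gain hdet D (fun v h1 h2 => hDV v ⟨by simp [h1], h2⟩) t₁ ht₁
    exact hgain.not_ge (hmax _ fun v hv => by simpa using hfeas t ht htle v hv)
  have hsu : ∀ a : s, ‖(a : R3)‖ = 1 := fun a => by simpa using (hs a a.2).1.2
  obtain ⟨⟨a₁, h₁⟩, ⟨a₂, h₂⟩, hpair⟩ := exists_pair (fun a : s => c a) (fun a : s => (a : R3))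
    (fun a : t => q a) (fun a : t => (a : R3)) hsu (fun a => by simpa using (ht a a.2).1.1)
    (fun a => (hs a a.2).2) (fun a => (ht a a.2).2)
    (by rw [Finset.sum_coe_sort t q]; exact hq1)
    (fun x => by
      rw [Finset.sum_coe_sort s fun a => c a * ⟪a, x⟫ ^ 2,
        Finset.sum_coe_sort t fun a => q a * ⟪a, x⟫ ^ 2]
      exact hres x)
    T (fun a => (ht a a.2).1.2)
  have hlow : b / √2 ≤ ‖T (cross a₁ a₂)‖ := by
    refine (pow_le_pow_iff_left₀ (by positivity) (norm_nonneg _) two_ne_zero).1 ?_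
    rw [div_pow, Real.sq_sqrt (by norm_num)]
    exact hpair
  have hX : T (cross a₁ a₂) ≠ 0 := fun h => by
    rw [h, norm_zero] at hlow
    have : 0 < b / √2 := by positivity
    linarith
  obtain ⟨v, hv, hshadow⟩ := slab_shadow o T
    (LinearMap.equivOfDetNeZero (T : R3 →ₗ[ℝ] R3) hdet).surjective a₁ a₂
    (fun y hy => polar_abs hsym (hs a₁ h₁).1.1 hy) (fun y hy => polar_abs hsym (hs a₂ h₂).1.1 hy) hX
  have hmain := ellipsoid_bound o T le_rfl hT hdet u hu B hcov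
  refine (mul_le_mul' le_rfl ((iInf₂_le v hv).trans hshadow)).trans ?_
  refine le_trans ?_ (ENNReal.div_le_of_le_mul' hmain)
  rw [← ENNReal.ofReal_mul (by positivity), ← ENNReal.ofReal_div_of_pos hb]
  refine ENNReal.ofReal_le_ofReal ?_
  calc π / (4 * √2) * (4 * |T.det| / ‖T (cross a₁ a₂)‖)
      ≤ π / (4 * √2) * (4 * |T.det| / (b / √2)) := by gcongr
    _ = _ := by field_simp

lemma half_lt_const : (1 / 2 : ℝ) < π / (4 * √2) := by
  rw [lt_div_iff₀ (by positivity)]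
  nlinarith [Real.pi_gt_three, Real.sq_sqrt (show (0 : ℝ) ≤ 2 by norm_num), Real.sqrt_nonneg 2]

end Vale.Agent.P243.Spheroid
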