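import Vale.Agent.P243.Third.Body

/-!
Two contact slabs: a weighted identity finds two contact normals whose cross product is stretched
by T at least 1/√2 as much as the most stretched direction, and two slabs bound the shadow along
the image of that cross product.
-/

namespace Vale.Agent.P243.Spheroid

open Set MeasureTheory
open Vale.Agent.P243.Third (G3 shadow frame shadow_eq)
open scoped RealInnerProductSpace ENNReal

/-- The cross product. -/
noncomputable def cross (a b : R3) : R3 :=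
  !₂[a 1 * b 2 - a 2 * b 1, a 2 * b 0 - a 0 * b 2, a 0 * b 1 - a 1 * b 0]

lemma inner3 (a b : R3) : ⟪a, b⟫ = a 0 * b 0 + a 1 * b 1 + a 2 * b 2 := by
  simp [PiLp.inner_apply, Fin.sum_univ_three, mul_comm]

lemma cross_cycle (t a b : R3) : ⟪t, cross a b⟫ = ⟪a, cross b t⟫ := by
  simp [inner3, cross]; ring

lemma cross_sq (a t : R3) : ‖cross a t‖ ^ 2 = ‖a‖ ^ 2 * ‖t‖ ^ 2 - ⟪a, t⟫ ^ 2 := by
  simp only [← real_inner_self_eq_norm_sq, inner3, cross]; simp; ring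

lemma sum_sq_coords (x : R3) : ∑ r : Fin 3, ⟪EuclideanSpace.single r (1 : ℝ), x⟫ ^ 2 = ‖x‖ ^ 2 := by
  rw [EuclideanSpace.real_norm_sq_eq]
  simp [EuclideanSpace.inner_single_left]

section Weights

variable {ι κ : Type*} [Fintype ι] [Fintype κ] (c : ι → ℝ) (ν : ι → R3) (p : κ → ℝ) (v : κ → R3)

/-- The resolution of the identity forces the contact weights to sum to two. -/
lemma sum_weights (hν : ∀ i, ‖ν i‖ = 1) (hv : ∀ k, ‖v k‖ = 1) (hp1 : ∑ k, p k = 1)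
    (hres : ∀ x : R3, ∑ i, c i * ⟪ν i, x⟫ ^ 2 + ∑ k, p k * ⟪v k, x⟫ ^ 2 = ‖x‖ ^ 2) :
    ∑ i, c i = 2 := by
  have h := Finset.sum_congr (s₁ := (Finset.univ : Finset (Fin 3))) rfl fun r _ =>
    hres (EuclideanSpace.single r (1 : ℝ))
  have e : ∀ w : R3, ∑ r : Fin 3, ⟪w, EuclideanSpace.single r (1 : ℝ)⟫ ^ 2 = ‖w‖ ^ 2 := fun w => by
    simp only [real_inner_comm _ w, sum_sq_coords]
  rw [Finset.sum_add_distrib, Finset.sum_comm (s := (Finset.univ : Finset (Fin 3))),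
    Finset.sum_comm (s := (Finset.univ : Finset (Fin 3))) (t := (Finset.univ : Finset κ))] at h
  simp only [← Finset.mul_sum, e, hν, hv, one_pow, mul_one, hp1] at h
  simp at h
  linarith

lemma triple_sum (hν : ∀ i, ‖ν i‖ = 1) (hv : ∀ k, ‖v k‖ = 1) (hp : ∀ k, 0 ≤ p k)
    (hp1 : ∑ k, p k = 1)
    (hres : ∀ x : R3, ∑ i, c i * ⟪ν i, x⟫ ^ 2 + ∑ k, p k * ⟪v k, x⟫ ^ 2 = ‖x‖ ^ 2) (t : R3) :
    2 * ∑ k, p k * ⟪t, v k⟫ ^ 2 ≤ ∑ j, c j * ∑ i, c i * ⟪t, cross (ν i) (ν j)⟫ ^ 2 := by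
  have hc := sum_weights c ν p v hν hv hp1 hres
  have r : ∀ x : R3, ∑ i, c i * ⟪ν i, x⟫ ^ 2 = ‖x‖ ^ 2 - ∑ k, p k * ⟪v k, x⟫ ^ 2 := fun x => by
    linarith [hres x]
  -- the inner sum
  have h1 : ∀ j, ∑ i, c i * ⟪t, cross (ν i) (ν j)⟫ ^ 2 =
      ‖t‖ ^ 2 - ⟪ν j, t⟫ ^ 2 - ∑ k, p k * ⟪ν j, cross t (v k)⟫ ^ 2 := fun j => by
    simp only [cross_cycle t (ν _) (ν j)]
    rw [r, cross_sq, hν, one_pow, one_mul]
    simp only [cross_cycle (v _) (ν j) t]
  -- the sum over the second normal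
  have h2 : ∀ k, ∑ j, c j * ⟪ν j, cross t (v k)⟫ ^ 2 ≤ ‖t‖ ^ 2 - ⟪t, v k⟫ ^ 2 := fun k => by
    rw [r, cross_sq, hv, one_pow, mul_one]
    linarith [Finset.sum_nonneg fun l (_ : l ∈ Finset.univ) =>
      mul_nonneg (hp l) (sq_nonneg ⟪v l, cross t (v k)⟫)]
  simp only [h1, mul_sub, Finset.sum_sub_distrib, ← Finset.sum_mul, hc, r t, Finset.mul_sum]
  rw [Finset.sum_comm]
  have h3 : ∑ k, ∑ j, c j * (p k * ⟪ν j, cross t (v k)⟫ ^ 2) ≤
      ∑ k, p k * (‖t‖ ^ 2 - ⟪t, v k⟫ ^ 2) := Finset.sum_le_sum fun k _ => by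
    rw [Finset.sum_congr rfl fun j _ => mul_left_comm (c j) (p k) _, ← Finset.mul_sum]
    exact mul_le_mul_of_nonneg_left (h2 k) (hp k)
  simp only [mul_sub, Finset.sum_sub_distrib, ← Finset.sum_mul, hp1, one_mul] at h3
  simp only [real_inner_comm t (v _)] at *
  rw [← Finset.mul_sum]
  linarith

/-- Some pair of contact normals has a cross product stretched by at least b/√2. -/
lemma exists_pair (hν : ∀ i, ‖ν i‖ = 1) (hv : ∀ k, ‖v k‖ = 1) (hc0 : ∀ i, 0 ≤ c i)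
    (hp : ∀ k, 0 ≤ p k) (hp1 : ∑ k, p k = 1)
    (hres : ∀ x : R3, ∑ i, c i * ⟪ν i, x⟫ ^ 2 + ∑ k, p k * ⟪v k, x⟫ ^ 2 = ‖x‖ ^ 2)
    (T : R3 →L[ℝ] R3) {b : ℝ} (hTv : ∀ k, ‖T (v k)‖ = b) :
    ∃ i j, b ^ 2 / 2 ≤ ‖T (cross (ν i) (ν j))‖ ^ 2 := by
  by_contra hno
  push Not at hno
  have hc := sum_weights c ν p v hν hv hp1 hres
  have e : ∀ x : R3, ∑ r : Fin 3,
      ⟪ContinuousLinearMap.adjoint T (EuclideanSpace.single r (1 : ℝ)), x⟫ ^ 2 = ‖T x‖ ^ 2 :=
    fun x => by simp only [ContinuousLinearMap.adjoint_inner_left, sum_sq_coords]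
  have h := Finset.sum_le_sum (s := (Finset.univ : Finset (Fin 3))) fun r _ =>
    triple_sum c ν p v hν hv hp hp1 hres
      (ContinuousLinearMap.adjoint T (EuclideanSpace.single r (1 : ℝ)))
  have hL : ∑ r : Fin 3, 2 * ∑ k, p k *
      ⟪ContinuousLinearMap.adjoint T (EuclideanSpace.single r (1 : ℝ)), v k⟫ ^ 2 = 2 * b ^ 2 := by
    rw [← Finset.mul_sum, Finset.sum_comm]
    simp only [← Finset.mul_sum, e, hTv]
    rw [← Finset.sum_mul, hp1, one_mul]
  have hR : ∑ r : Fin 3, ∑ j, c j * ∑ i, c i *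
      ⟪ContinuousLinearMap.adjoint T (EuclideanSpace.single r (1 : ℝ)), cross (ν i) (ν j)⟫ ^ 2 =
      ∑ j, c j * ∑ i, c i * ‖T (cross (ν i) (ν j))‖ ^ 2 := by
    rw [Finset.sum_comm]
    refine Finset.sum_congr rfl fun j _ => ?_
    rw [← Finset.mul_sum, Finset.sum_comm]
    simp only [← Finset.mul_sum, e]
  rw [hL, hR] at h
  obtain ⟨i₀, hi₀⟩ : ∃ i, 0 < c i := by
    by_contra hh
    push Not at hh
    linarith [Finset.sum_nonpos fun i (_ : i ∈ Finset.univ) => hh i]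
  have hlt : ∑ j, c j * ∑ i, c i * ‖T (cross (ν i) (ν j))‖ ^ 2 <
      ∑ j, c j * ∑ i, c i * (b ^ 2 / 2) := by
    have hl : ∀ j, ∑ i, c i * ‖T (cross (ν i) (ν j))‖ ^ 2 < ∑ i, c i * (b ^ 2 / 2) := fun j =>
      Finset.sum_lt_sum (fun i _ => mul_le_mul_of_nonneg_left (hno i j).le (hc0 i))
        ⟨i₀, Finset.mem_univ _, mul_lt_mul_of_pos_left (hno i₀ j) hi₀⟩
    exact Finset.sum_lt_sum (fun j _ => mul_le_mul_of_nonneg_left (hl j).le (hc0 j))
      ⟨i₀, Finset.mem_univ _, mul_lt_mul_of_pos_left (hl i₀) hi₀⟩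
  simp only [← Finset.sum_mul, hc] at hlt
  linarith

end Weights

lemma decompose (a b y : R3) :
    ‖cross a b‖ ^ 2 • y = ⟪cross a b, y⟫ • cross a b + ⟪a, y⟫ • cross b (cross a b) +
      ⟪b, y⟫ • cross (cross a b) a := by
  ext k
  simp only [← real_inner_self_eq_norm_sq, inner3, cross]
  fin_cases k <;> simp <;> ring

lemma dual_triple (a b : R3) :
    ⟪cross a b, cross (cross b (cross a b)) (cross (cross a b) a)⟫ = (‖cross a b‖ ^ 2) ^ 2 := by
  simp only [← real_inner_self_eq_norm_sq, inner3, cross]; simp; ring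

lemma triple_map (T : R3 →L[ℝ] R3) (a b c : R3) :
    ⟪T a, cross (T b) (T c)⟫ = T.det * ⟪a, cross b c⟫ := by
  have key : ∀ x y z : R3, ⟪x, cross y z⟫ =
      (EuclideanSpace.basisFun (Fin 3) ℝ).toBasis.det ![x, y, z] := fun x y z => by
    rw [Module.Basis.det_apply, Matrix.det_fin_three]
    simp [Module.Basis.toMatrix_apply, inner3, cross]
    ring
  rw [key, key, ContinuousLinearMap.det, ← Module.Basis.det_comp]
  congr 1
  funext k
  fin_cases k <;> rfl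

/-- Two slabs bound the shadow along the image of their common direction. -/
lemma slab_shadow {K : Set R3} (o : R3) (T : R3 →L[ℝ] R3) (hsurj : Function.Surjective T) (a b : R3)
    (ha : ∀ y : R3, o + T y ∈ K → |⟪a, y⟫| ≤ 1) (hb : ∀ y : R3, o + T y ∈ K → |⟪b, y⟫| ≤ 1)
    (hX : T (cross a b) ≠ 0) :
    ∃ u : R3, ‖u‖ = 1 ∧
      shadowArea u K ≤ ENNReal.ofReal (4 * |T.det| / ‖T (cross a b)‖) := by
  set X := cross a b with hXdef
  have hX0 : X ≠ 0 := fun h => hX (by rw [h, map_zero])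
  set q := ‖X‖ ^ 2 with hq
  have hq0 : 0 < q := by positivity
  set N := ‖T X‖ with hN
  have hN0 : 0 < N := norm_pos_iff.2 hX
  set u := N⁻¹ • T X with hudef
  have hu : ‖u‖ = 1 := norm_smul_inv_norm hX
  refine ⟨u, hu, ?_⟩
  obtain ⟨e, n, ψ, he, hn, hen, heu, hnu, -, hψ⟩ := frame hu
  set A := T (q⁻¹ • cross b X) with hA
  set B := T (q⁻¹ • cross X a) with hB
  have hTX : T X = N • u := by rw [hudef, smul_inv_smul₀ hN0.ne']
  set L : (ℝ × ℝ) →ₗ[ℝ] (ℝ × ℝ) :=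
    (LinearMap.fst ℝ ℝ ℝ).smulRight (⟪e, A⟫, ⟪n, A⟫) +
      (LinearMap.snd ℝ ℝ ℝ).smulRight (⟪e, B⟫, ⟪n, B⟫) with hL
  have hLs : ∀ s : ℝ × ℝ, L s = s.1 • ((⟪e, A⟫, ⟪n, A⟫) : ℝ × ℝ) + s.2 • (⟪e, B⟫, ⟪n, B⟫) :=
    fun s => by simp [hL]
  have hdetL : |LinearMap.det L| = |T.det| / N := by
    have h1 : LinearMap.det L = ⟪cross e n, cross A B⟫ := by
      rw [← LinearMap.det_toMatrix (Module.Basis.finTwoProd ℝ), Matrix.det_fin_two]
      simp [LinearMap.toMatrix_apply, hLs, inner3, cross]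
      ring
    have hen' : cross e n = ⟪u, cross e n⟫ • u := by
      apply ψ.injective
      have o1 : ⟪e, cross e n⟫ = 0 := by simp [inner3, cross]; ring
      have o2 : ⟪n, cross e n⟫ = 0 := by simp [inner3, cross]; ring
      simp [hψ, o1, o2, inner_smul_right, heu, hnu, hu]
    have hone : |⟪u, cross e n⟫| = 1 := by
      have := cross_sq e n
      rw [he, hn, hen, hen', norm_smul, hu, Real.norm_eq_abs] at this
      simp at this
      rcases this with h | h <;> simp [h]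
    have h2 : N * ⟪u, cross A B⟫ = T.det := by
      rw [← real_inner_smul_left, ← hTX, hA, hB, triple_map]
      have hs : ∀ (r : ℝ) (x y : R3), cross (r • x) (r • y) = (r * r) • cross x y := fun r x y => by
        ext k; simp only [cross]; fin_cases k <;> simp <;> ring
      rw [hs, real_inner_smul_right, hXdef, dual_triple, ← hXdef, ← hq]
      field_simp
    rw [h1, hen', real_inner_smul_left, abs_mul, hone, one_mul, ← h2, abs_mul, abs_of_pos hN0]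
    field_simp
  set S := Icc (-1 : ℝ) 1 ×ˢ Icc (-1 : ℝ) 1
  set c₀ : ℝ × ℝ := (⟪e, o⟫, ⟪n, o⟫)
  have hsub : shadow (ψ '' K) ⊆ (fun s => c₀ + s) '' (L '' S) := by
    rintro _ ⟨_, ⟨x, hx, rfl⟩, rfl⟩
    obtain ⟨y, hy⟩ := hsurj (x - o)
    have hyK : o + T y ∈ K := by rw [hy, add_sub_cancel]; exact hx
    refine ⟨_, ⟨(⟪a, y⟫, ⟪b, y⟫), ⟨abs_le.1 (ha y hyK), abs_le.1 (hb y hyK)⟩, rfl⟩, ?_⟩
    have hd : T y = (⟪X, y⟫ / q * N) • u + ⟪a, y⟫ • A + ⟪b, y⟫ • B := by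
      have h := congrArg (fun z => T (q⁻¹ • z)) (decompose a b y)
      simp only [← hXdef, ← hq, inv_smul_smul₀ hq0.ne'] at h
      rw [h, hA, hB]
      simp only [smul_add, map_add, map_smul, smul_smul, hTX]
      module
    have hx' : x = o + T y := by rw [hy, add_sub_cancel]
    rw [hψ, hx', hd, hLs]
    simp [c₀, inner_add_right, inner_smul_right, heu, hnu]
  rw [← shadow_eq he hn hu hen heu hnu hψ]
  refine (measure_mono hsub).trans (le_of_eq ?_)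
  rw [image_add_left, measure_preimage_add, Measure.addHaar_image_linearMap, hdetL,
    Measure.volume_eq_prod, Measure.prod_prod, Real.volume_Icc, ← ENNReal.ofReal_mul (by norm_num),
    ← ENNReal.ofReal_mul (by positivity)]
  congr 1; ring

end Vale.Agent.P243.Spheroid
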